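import Mathlib

/-!
Summation over the spins in disjoint sets.
-/

namespace Vale.Agent.P144Z.SpA

open Finset

variable {X ι : Type} [DecidableEq X]

/-- The spins in `T` are reversed. -/
def flp (T : Finset X) (σ : X → Bool) (u : X) : Bool := xor (σ u) (decide (u ∈ T))

/-- The function does not depend on the spins in `D`. -/
def Inv (D : Finset X) (f : (X → Bool) → ℝ) : Prop :=
  ∀ σ σ', (∀ u, u ∉ D → σ u = σ' u) → f σ = f σ'

theorem flp_flp (T : Finset X) (σ : X → Bool) : flp T (flp T σ) = σ := by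
  funext u
  simp [flp]

theorem flp_out {T D : Finset X} (h : T ⊆ D) (σ : X → Bool) {u : X} (hu : u ∉ D) :
    flp T σ u = σ u := by
  have : u ∉ T := fun h' => hu (h h')
  simp [flp, this]

theorem Inv.flp {D T : Finset X} {f : (X → Bool) → ℝ} (h : Inv D f) (hT : T ⊆ D) (σ : X → Bool) :
    f (flp T σ) = f σ :=
  h _ _ fun _ hu => flp_out hT σ hu

/-- The spins in `D` are all up. -/
def up (D : Finset X) (σ : X → Bool) : ℝ := if ∀ u ∈ D, σ u = true then 1 else 0

/-- The sum over the spins in `D`, when they are all up. -/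
noncomputable def avg (D : Finset X) (g : (X → Bool) → ℝ) (σ : X → Bool) : ℝ :=
  up D σ * ∑ T ∈ D.powerset, g (flp T σ)

theorem Inv.avg {D D' : Finset X} {g : (X → Bool) → ℝ} (h : Inv D' g) (hd : Disjoint D D') :
    Inv D' (avg D g) := by
  intro σ σ' hσ
  refine congrArg₂ (· * ·) (if_congr (forall₂_congr fun u hu => ?_) rfl rfl)
    (sum_congr rfl fun T _ => h _ _ fun u hu => ?_)
  · rw [hσ u (disjoint_left.1 hd hu)]
  · simp only [SpA.flp, hσ u hu]

variable [Fintype X]

theorem sum_avg_one (D : Finset X) (f : (X → Bool) → ℝ) : ∑ σ, f σ = ∑ σ, avg D f σ := by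
  have h1 : ∀ T, ∑ σ : X → Bool, up D σ * f (flp T σ) =
      ∑ σ : X → Bool, up D (flp T σ) * f σ := fun T => by
    rw [← Equiv.sum_comp (Function.Involutive.toPerm (flp T) (flp_flp T))]
    refine sum_congr rfl fun σ _ => ?_
    show _ * f (flp T (flp T σ)) = _
    rw [flp_flp]
    rfl
  simp only [avg, mul_sum]
  rw [sum_comm, sum_congr rfl fun T _ => h1 T, sum_comm]
  refine sum_congr rfl fun σ _ => ?_
  rw [← sum_mul, sum_eq_single (D.filter fun u => σ u = false), up, if_pos, one_mul]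
  · intro u hu
    cases h : σ u <;> simp [flp, hu, h]
  · intro T hT hne
    refine if_neg fun h => hne ?_
    ext u
    rw [mem_filter]
    refine ⟨fun hu => ⟨mem_powerset.1 hT hu, ?_⟩, fun hu => ?_⟩
    · simpa [flp, hu] using h u (mem_powerset.1 hT hu)
    · simpa [flp, hu.2] using h u hu.1
  · exact fun h => absurd (mem_powerset.2 (filter_subset _ _)) h

theorem sum_avg (D : ι → Finset X) (g : ι → (X → Bool) → ℝ) (P : Finset ι)
    (hd : ∀ p ∈ P, ∀ p' ∈ P, p ≠ p' → Disjoint (D p) (D p') ∧ Inv (D p') (g p))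
    (W : (X → Bool) → ℝ) (hW : ∀ p ∈ P, Inv (D p) W) :
    ∑ σ, W σ * ∏ p ∈ P, g p σ = ∑ σ, W σ * ∏ p ∈ P, avg (D p) (g p) σ := by
  classical
  induction P using Finset.induction_on generalizing W with
  | empty => rfl
  | insert p₀ P hp ih =>
    have hne : ∀ p ∈ P, p ≠ p₀ := fun p h e => hp (e ▸ h)
    have h1 := ih (fun p h p' h' => hd p (mem_insert_of_mem h) p' (mem_insert_of_mem h'))
      (fun σ => W σ * g p₀ σ) fun p h σ σ' hσ => congrArg₂ (· * ·)
        (hW p (mem_insert_of_mem h) σ σ' hσ)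
        ((hd p₀ (mem_insert_self _ _) p (mem_insert_of_mem h) (hne p h).symm).2 σ σ' hσ)
    simp only [prod_insert hp, ← mul_assoc]
    rw [h1, sum_avg_one (D p₀)]
    refine sum_congr rfl fun σ _ => ?_
    have h2 : ∀ T ∈ (D p₀).powerset, W (flp T σ) * g p₀ (flp T σ) *
        ∏ p ∈ P, avg (D p) (g p) (flp T σ) =
        W σ * (∏ p ∈ P, avg (D p) (g p) σ) * g p₀ (flp T σ) := by
      intro T hT
      rw [mem_powerset] at hT
      rw [(hW p₀ (mem_insert_self _ _)).flp hT, mul_right_comm, prod_congr rfl fun p h => ?_]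
      obtain ⟨h3, h4⟩ := hd p (mem_insert_of_mem h) p₀ (mem_insert_self _ _) (hne p h)
      exact (h4.avg h3).flp hT σ
    rw [avg, sum_congr rfl h2, ← mul_sum, avg]
    ring

end Vale.Agent.P144Z.SpA
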