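import Vale.Agent.P144E.Sp.En
import Vale.Agent.P144E.Sp.Avg

/-!
The Gibbs measure of a set in terms of the contours of the dug set.
-/

namespace Vale.Agent.P144Z

open Finset

namespace SpA

variable {M : ℕ} [NeZero M]

/-- The removed sites near `p`. -/
def hol (I : Finset (Tor M)) (t : ℕ) (p : ℤ × ℤ) : Finset (Tor M) :=
  I.filter fun u => tdist u (prj M p) ≤ t

/-- The set `S` meets `D`. -/
def mt (D S : Finset (Tor M)) : ℝ := if Disjoint S D then 0 else 1

/-- The set `S` avoids the sets `D p`. -/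
def av (P : Finset (ℤ × ℤ)) (D : ℤ × ℤ → Finset (Tor M)) (S : Finset (Tor M)) : ℝ :=
  if ∀ p ∈ P, Disjoint S (D p) then 1 else 0

/-- The sets `D p` are separated. -/
def Sep (K : ℕ) (P : Finset (ℤ × ℤ)) (D : ℤ × ℤ → Finset (Tor M)) : Prop :=
  ∀ p ∈ P, ∀ p' ∈ P, p ≠ p' → ∀ u ∈ D p, ∀ u' ∈ D p', K < tdist u u'

section

variable {K t : ℕ} {P : Finset (ℤ × ℤ)} {D : ℤ × ℤ → Finset (Tor M)} {S I : Finset (Tor M)}

omit [NeZero M] in
theorem mt_ne {D : Finset (Tor M)} (h : mt D S ≠ 0) : ∃ u ∈ S, u ∈ D := by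
  by_contra h'
  exact h (if_pos (disjoint_left.2 fun u h1 h2 => h' ⟨u, h1, h2⟩))

omit [NeZero M] in
theorem abs_mt (D S : Finset (Tor M)) : |mt D S| ≤ 1 := by
  unfold mt
  split_ifs <;> simp

omit [NeZero M] in
theorem mt_hol {p : ℤ × ℤ} (h : mt (hol I t p) S ≠ 0) : ∃ u ∈ S, tdist u (prj M p) ≤ t := by
  obtain ⟨u, h1, h2⟩ := mt_ne h
  exact ⟨u, h1, (mem_filter.1 h2).2⟩

omit [NeZero M] in
theorem Sep.out (h : Sep K P D) (hS : Sml K S) {p p' : ℤ × ℤ} (hp : p ∈ P) (hp' : p' ∈ P)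
    (hne : p ≠ p') (h0 : mt (D p) S ≠ 0) {u : Tor M} (hu : u ∈ S) : u ∉ D p' := fun h1 => by
  obtain ⟨v, h2, h3⟩ := mt_ne h0
  exact absurd (hS v h2 u hu) (not_le.2 (h p hp p' hp' hne v h3 u h1))

omit [NeZero M] in
theorem Sep.split (h : Sep K P D) (hS : Sml K S) : 1 = av P D S + ∑ p ∈ P, mt (D p) S := by
  unfold av
  split_ifs with h1
  · rw [sum_eq_zero (f := fun p => mt (D p) S) fun p hp => if_pos (h1 p hp), add_zero]
  · simp only [not_forall] at h1
    obtain ⟨p, hp, h2⟩ := h1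
    have h3 : mt (D p) S = 1 := if_neg h2
    rw [sum_eq_single (f := fun p => mt (D p) S) p (fun p' hp' hne => if_pos (disjoint_left.2
      fun u hu => h.out hS hp hp' hne.symm (h3 ▸ one_ne_zero) hu)) fun h' => absurd hp h', h3,
      zero_add]

theorem Sep.disj (h : Sep K P D) {p p' : ℤ × ℤ} (hp : p ∈ P) (hp' : p' ∈ P) (hne : p ≠ p') :
    Disjoint (D p) (D p') := disjoint_left.2 fun u h1 h2 => by
  have := h p hp p' hp' hne u h1 u h2
  rw [tdist_self] at this
  omega

theorem card_hol (I : Finset (Tor M)) (t : ℕ) (p : ℤ × ℤ) : (hol I t p).card ≤ (2 * t + 1) ^ 2 :=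
  (card_le_card fun _ h => G.mem_ball.2 (mem_filter.1 h).2).trans (card_ball_le (prj M p) t)

end

section

variable {Λ P : Finset (ℤ × ℤ)} {T t K : ℕ}

theorem box_le (hb : ∀ v ∈ dig Λ P t, zd v 0 ≤ T) (hP : ∀ p ∈ P, zd p 0 ≤ T) :
    ∀ v ∈ Λ, zd v 0 ≤ T + t := by
  intro v hv
  by_cases h : ∀ p ∈ P, t < zd v p
  · exact (hb v (mem_dig.2 ⟨hv, h⟩)).trans (Nat.le_add_right _ _)
  · simp only [not_forall, not_lt] at h
    obtain ⟨p, hp, h⟩ := h
    have h1 := GeoA.zd_tri v p 0
    have h2 := hP p hp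
    omega

theorem mem_dig_im (hb : ∀ v ∈ dig Λ P t, zd v 0 ≤ T) (hP : ∀ p ∈ P, zd p 0 ≤ T)
    (hM : 2 * (2 * T + t) < M) {u : Tor M} : u ∈ (dig Λ P t).image (prj M) ↔
      u ∈ Λ.image (prj M) ∧ ∀ p ∈ P, u ∉ hol (Λ.image (prj M)) t p := by
  have key : ∀ v ∈ Λ, ∀ p ∈ P, tdist (prj M v) (prj M p) = zd v p := fun v hv p hp => by
    have h1 := box_le hb hP v hv
    have h2 := hP p hp
    have h3 := GeoA.zd_tri v 0 p
    rw [GeoA.zd_comm 0] at h3
    exact ISecB.tdist_eq (by omega)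
  constructor
  · intro h
    obtain ⟨v, hv, rfl⟩ := mem_image.1 h
    obtain ⟨h1, h2⟩ := mem_dig.1 hv
    refine ⟨mem_image_of_mem _ h1, fun p hp h3 => ?_⟩
    have h4 := (mem_filter.1 h3).2
    rw [key v h1 p hp] at h4
    exact absurd (h2 p hp) (not_lt.2 h4)
  · rintro ⟨h1, h2⟩
    obtain ⟨v, hv, rfl⟩ := mem_image.1 h1
    refine mem_image_of_mem _ (mem_dig.2 ⟨hv, fun p hp => not_le.1 fun h3 => h2 p hp ?_⟩)
    exact mem_filter.2 ⟨h1, by rwa [key v hv p hp]⟩

theorem sep_hol (hP : ∀ p ∈ P, zd p 0 ≤ T)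
    (hsep : ∀ p ∈ P, ∀ p' ∈ P, p ≠ p' → 2 * t + K < zd p p') (hM : 4 * T < M)
    (I : Finset (Tor M)) : Sep K P (hol I t) := by
  intro p hp p' hp' hne u hu u' hu'
  have h1 := (mem_filter.1 hu).2
  have h2 := (mem_filter.1 hu').2
  have h3 := hsep p hp p' hp' hne
  have h4 := hP p hp
  have h5 := hP p' hp'
  have h6 := GeoA.zd_tri p 0 p'
  rw [GeoA.zd_comm 0] at h6
  have h7 := tdist_triangle (prj M p) u (prj M p')
  have h8 := tdist_triangle u u' (prj M p')
  rw [ISecB.tdist_eq (by omega), tdist_comm _ u] at h7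
  omega

end

variable {q : Par} {R₁ : ℕ} {κ : ℝ} {P : Finset (ℤ × ℤ)} {D : ℤ × ℤ → Finset (Tor M)}
  {I I' : Finset (Tor M)}

/-- The local observable for the free boundary condition. -/
noncomputable def obF (q : Par) (κ : ℝ) (I D : Finset (Tor M)) (n : Tor M × Fin 2 → Bool) : ℝ :=
  Real.exp (enW q κ (fun S => (if S ⊆ I then 1 else 0) * mt D S) n)

/-- The local observable for the plus boundary condition. -/
noncomputable def obP (q : Par) (κ : ℝ) (D : Finset (Tor M)) (n : Tor M × Fin 2 → Bool) : ℝ :=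
  ∑ U ∈ D.powerset, Real.exp (enW q κ (mt D)
    (fun e => xor (n e) (dom (fun u => decide (u ∈ U)) e)) - enW q κ (mt D) n)

theorem wF_split (hV : P144.IsPotential q.V)
    (hR : ∀ B, q.V B ≠ 0 → (0, 0) ∈ B → B ∈ potSets R₁) (hx : q.x = Real.exp (-κ))
    (hD : Sep (R₁ + 1) P D) (hI : ∀ u, u ∈ I' ↔ u ∈ I ∧ ∀ p ∈ P, u ∉ D p)
    (n : Tor M × Fin 2 → Bool) :
    DH1.wF q I n = (∏ p ∈ P, obF q κ I (D p) n) * DH1.wF q I' n := by
  rw [wF_eq hx, wF_eq hx, mul_comm]
  simp only [obF]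
  rw [← Real.exp_sum, ← Real.exp_add]
  refine congrArg Real.exp (enW_split hV hR P (fun S hS => ?_) n)
  rw [← mul_sum]
  by_cases h1 : S ⊆ I
  · rw [if_pos h1, one_mul]
    refine (hD.split hS).trans (congrArg (· + _) (if_congr ?_ rfl rfl))
    exact ⟨fun h u hu => (hI u).2 ⟨h1 hu, fun p hp => disjoint_left.1 (h p hp) hu⟩,
      fun h p hp => disjoint_left.2 fun u hu => ((hI u).1 (h hu)).2 p hp⟩
  · rw [if_neg h1, if_neg fun h => h1 fun u hu => ((hI u).1 (h hu)).1, zero_mul, add_zero]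

omit [NeZero M] in
theorem dom_flp (U : Finset (Tor M)) (σ : Tor M → Bool) :
    dom (flp U σ) = fun e => xor (dom σ e) (dom (fun u => decide (u ∈ U)) e) := by
  funext e
  show xor (xor (σ e.1) (decide (e.1 ∈ U))) (xor (σ (oth e)) (decide (oth e ∈ U))) =
    xor (xor (σ e.1) (σ (oth e))) (xor (decide (e.1 ∈ U)) (decide (oth e ∈ U)))
  cases σ e.1 <;> cases σ (oth e) <;> cases decide (e.1 ∈ U) <;> cases decide (oth e ∈ U) <;> rfl

open Classical in
theorem sum_split (hV : P144.IsPotential q.V)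
    (hR : ∀ B, q.V B ≠ 0 → (0, 0) ∈ B → B ∈ potSets R₁) (hx : q.x = Real.exp (-κ))
    (hD : Sep (R₁ + 1) P D) (hI : ∀ u, u ∈ I' ↔ u ∈ I ∧ ∀ p ∈ P, u ∉ D p)
    (hDI : ∀ p, D p ⊆ I) (G : (Tor M → Bool) → ℝ) (hG : ∀ p ∈ P, Inv (D p) G) :
    ∑ s, (if OutB I (fun _ => true) s then G s * DH1.wT q s else 0) =
      ∑ σ, (if ∀ u, u ∉ I' → σ u = true then 1 else 0) *
        (G σ * ∏ p ∈ P, obP q κ (D p) (dom σ)) * DH1.wT q σ := by
  have hw : ∀ σ : Tor M → Bool, DH1.wT q σ = Real.exp (enW q κ (av P D) (dom σ)) *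
      ∏ p ∈ P, Real.exp (enW q κ (mt (D p)) (dom σ)) := fun σ => by
    rw [wT_eq hx, ← Real.exp_sum, ← Real.exp_add]
    exact congrArg Real.exp (enW_split hV hR P (fun S hS => hD.split hS) _)
  have h := sum_avg D (fun p σ => Real.exp (enW q κ (mt (D p)) (dom σ))) P
    (fun p hp p' hp' hne => ⟨hD.disj hp hp' hne, fun σ σ' h => congrArg Real.exp
      (enW_dom hV (fun S hS h0 u hu => h u (hD.out hS hp hp' hne h0 hu)) hR)⟩)
    (fun σ => (if OutB I (fun _ => true) σ then 1 else 0) * G σ *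
      Real.exp (enW q κ (av P D) (dom σ))) fun p hp σ σ' h => ?_
  · refine Eq.trans (sum_congr rfl fun σ _ => ?_) (h.trans (sum_congr rfl fun σ _ => ?_))
    · rw [hw]
      split_ifs <;> ring
    · by_cases h1 : ∀ u, u ∉ I' → σ u = true
      · have h2 : ∀ p ∈ P, avg (D p) (fun σ => Real.exp (enW q κ (mt (D p)) (dom σ))) σ =
            obP q κ (D p) (dom σ) * Real.exp (enW q κ (mt (D p)) (dom σ)) := fun p hp => by
          rw [avg, up, if_pos fun u hu => h1 u fun h => ((hI u).1 h).2 p hp hu, one_mul, obP,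
            sum_mul]
          refine sum_congr rfl fun U _ => ?_
          rw [dom_flp, ← Real.exp_add, sub_add_cancel]
        rw [if_pos h1, if_pos (show OutB I _ σ from fun u hu => h1 u fun h => hu ((hI u).1 h).1),
          prod_congr rfl h2, prod_mul_distrib, hw]
        ring
      · rw [if_neg h1, zero_mul, zero_mul]
        simp only [not_forall] at h1
        obtain ⟨u, h2, h3⟩ := h1
        by_cases h4 : u ∈ I
        · rw [hI, not_and] at h2
          have h5 := h2 h4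
          simp only [not_forall, not_not] at h5
          obtain ⟨p, hp, h5⟩ := h5
          refine mul_eq_zero_of_right _ (prod_eq_zero hp ?_)
          rw [avg, up, if_neg fun h => h3 (h u h5), zero_mul]
        · rw [if_neg fun h => h3 (h u h4), zero_mul, zero_mul, zero_mul]
  · refine congrArg₂ (· * ·) (congrArg₂ (· * ·) (if_congr (forall₂_congr fun u hu => ?_) rfl rfl)
      (hG p hp σ σ' h)) (congrArg Real.exp (enW_dom hV (fun S _ h0 u hu => h u ?_) hR))
    · rw [h u fun h' => hu (hDI p h')]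
    · exact disjoint_left.1 (by_contra fun h' => h0 (if_neg fun h'' => h' (h'' p hp))) hu

end SpA

open SpA in
/-- The Gibbs measure of a set in terms of the contours of the dug set. -/
theorem spStmt : SpStmt := by
  classical
  intro R₁ t
  obtain ⟨A, hA⟩ : ∃ A : ℝ, A = 5 * (2 * (t + R₁ + 1 : ℕ) + 1) ^ 2 := ⟨_, rfl⟩
  have hA0 : 0 ≤ A := by rw [hA]; positivity
  have hC1 : (1 : ℝ) ≤ 2 ^ ((2 * t + 1) ^ 2) := one_le_pow₀ one_le_two
  have hC2 : Real.exp (2 * A) ≤ 2 ^ ((2 * t + 1) ^ 2) * Real.exp (2 * A) :=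
    le_mul_of_one_le_left (Real.exp_pos _).le hC1
  have hC3 : (2 ^ ((2 * t + 1) ^ 2) * Real.exp (2 * A))⁻¹ ≤ Real.exp (-(2 * A)) := by
    rw [Real.exp_neg]
    exact inv_anti₀ (Real.exp_pos _) hC2
  refine ⟨2 ^ ((2 * t + 1) ^ 2) * Real.exp (2 * A),
    (Real.one_le_exp (by positivity)).trans hC2, ?_⟩
  intro J lam β q hq hR h4 h2 hs M _ Λ P fr T r H a hs' hH hc hfr hP hsep hM
  have hx := hq.x
  have hx0 : 0 < q.x := hx ▸ Real.exp_pos _
  have hκ0 : 0 ≤ 2 * β * J := by
    have : Real.exp (-(2 * β * J)) ≤ Real.exp 0 := by rw [← hx, Real.exp_zero]; linarith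
    have := Real.exp_le_exp.1 this
    linarith
  have hκ2 : 2 * β * J ≤ 2 := by
    have h1 : Real.exp (-2) ≤ Real.exp (-(2 * β * J)) := by
      rw [← hx, Real.exp_neg]
      refine le_trans ?_ h4
      rw [one_div]
      refine inv_anti₀ (by norm_num) ?_
      have h5 := Real.add_one_le_exp (1 : ℝ)
      rw [show (2 : ℝ) = 1 + 1 by norm_num, Real.exp_add]
      nlinarith
    have := Real.exp_le_exp.1 h1
    linarith
  generalize 2 * β * J = κ at hx hκ0 hκ2
  have hΛ := box_le hH.box hP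
  have hI := fun u : Tor M => mem_dig_im (M := M) hH.box hP (by omega) (u := u)
  have hD := sep_hol (M := M) (t := t) (K := R₁ + 1) hP
    (fun p hp p' hp' hne => by have := hsep p hp p' hp' hne; omega) (by omega) (Λ.image (prj M))
  set I := Λ.image (prj M) with hIdef
  have hsub : ∀ F : P144.Config → ℝ, (∀ σ σ', (∀ x ∈ dig Λ P t, σ x = σ' x) → F σ = F σ') →
      ∀ σ σ', (∀ x ∈ Λ, σ x = σ' x) → F σ = F σ' :=
    fun F hF σ σ' h => hF σ σ' fun x hx => h x (mem_dig.1 hx).1
  cases fr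
  · have hb : ∀ p n, |enW q κ (mt (hol I t p)) n| ≤ A := fun p n =>
      hA ▸ abs_enW hq.pot hR hs hκ0 hκ2 (abs_mt _) (fun _ => mt_hol) n
    refine ⟨fun p => obP q κ (hol I t p), fun p _ n n' h => sum_congr rfl fun U _ => ?_,
      fun p n => ⟨hC3.trans ?_, ?_⟩, fun F Φ hF hΦ _ => ?_⟩
    · rw [enW_loc hq.pot hR (fun _ => mt_hol) h, enW_loc hq.pot hR (fun _ => mt_hol)
        (n := fun e => xor (n e) _) (n' := fun e => xor (n' e) (dom (fun u => decide (u ∈ U)) e))
        fun e h1 h3 => by rw [h e h1 h3]]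
    · refine le_trans (Real.exp_le_exp.2 ?_) (single_le_sum (fun _ _ => (Real.exp_pos _).le)
        (empty_mem_powerset _))
      linarith [abs_le.1 (hb p n), abs_le.1 (hb p fun e => xor (n e)
        (dom (fun u => decide (u ∈ (∅ : Finset (Tor M)))) e))]
    · refine (sum_le_card_nsmul _ _ (Real.exp (2 * A)) fun U _ => Real.exp_le_exp.2 ?_).trans ?_
      · linarith [abs_le.1 (hb p n), abs_le.1 (hb p fun e => xor (n e)
          (dom (fun u => decide (u ∈ U)) e))]
      · rw [nsmul_eq_mul, card_powerset]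
        refine mul_le_mul_of_nonneg_right ?_ (Real.exp_pos _).le
        exact_mod_cast Nat.pow_le_pow_right two_pos (card_hol I t p)
    · obtain ⟨h1, h3, h5⟩ := UL.out_pts hH hc (by omega) rfl
      have e0 : (regOf M (dig Λ P t) false).cor q = 0 := DH1.cor_plus _ q
      have h0 : 0 < ∑ σ : Tor M → Bool, (if ∀ u, u ∉ (dig Λ P t).image (prj M) → σ u = true
          then 1 else 0) * (1 : (Tor M × Fin 2 → Bool) → ℝ) (dom σ) * DH1.wT q σ := by
        refine sum_pos' (fun σ _ => ?_) ⟨fun _ => true, mem_univ _, ?_⟩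
        · split_ifs
          · simpa using (DH1.wT_pos hx0 σ).le
          · simp
        · simpa using DH1.wT_pos hx0 (M := M) fun _ => true
      unfold secE
      simp only [e0, DH1.ZwC_zero,
        DH1.sum_plus hH.box (by omega : 2 * (T + 1) ≤ M) q a hs' h1 h3 h5]
      rw [div_div_div_cancel_right₀ (mul_pos (by positivity) h0).ne',
        mul_div_mul_left _ _ (by positivity), if_neg Bool.false_ne_true,
        ISecB.gibbs_b (M := M) hq hΛ (by omega) _ F (hsub F hF)]
      refine congrArg₂ (· / ·) ?_ ?_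
      · refine (sum_split hq.pot hR hx hD hI (fun _ => filter_subset _ _) (fun s => F (per M s))
          fun p hp σ σ' h => hF _ _ fun x hx => h _ (((hI _).1 (mem_image_of_mem _ hx)).2 p hp)
          ).trans (sum_congr rfl fun σ _ => ?_)
        split_ifs with h
        · rw [hΦ σ fun _ => h _ h1]
        · simp
      · have h6 := sum_split hq.pot hR hx hD hI (fun _ => filter_subset _ _) (fun _ => 1)
          fun _ _ _ _ _ => rfl
        simpa only [one_mul] using h6
  · obtain rfl := hfr rfl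
    have hl : LocE P (t + R₁ + 2) fun p => obF q κ I (hol I t p) := fun p _ n n' h =>
      congrArg Real.exp (enW_loc hq.pot hR (fun _ h0 => mt_hol (right_ne_zero_of_mul h0)) h)
    refine ⟨fun p => obF q κ I (hol I t p), hl, fun p n => ?_, fun F Φ hF hΦ hloc => ?_⟩
    · have hb : |enW q κ (fun S => (if S ⊆ I then 1 else 0) * mt (hol I t p) S) n| ≤ A := by
        refine hA ▸ abs_enW hq.pot hR hs hκ0 hκ2 (fun S => ?_)
          (fun _ h0 => mt_hol (right_ne_zero_of_mul h0)) n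
        split_ifs
        · rw [one_mul]
          exact abs_mt _ _
        · simp
      rw [abs_le] at hb
      exact ⟨hC3.trans (Real.exp_le_exp.2 (by linarith)),
        le_trans (Real.exp_le_exp.2 (by linarith)) hC2⟩
    · have hb : ∀ x ∈ dig Λ P t, zd x 0 ≤ T + t + R₁ + 2 := fun x hx => by
        have := hH.box x hx
        omega
      have hO : BoxLoc (T + t + R₁ + 2 + 1) fun n => ∏ p ∈ P, obF q κ I (hol I t p) n := by
        refine fun n n' h => prod_congr rfl fun p hp => hl p hp n n' fun e he _ => h e ?_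
        rw [G.mem_ball] at he
        have h1 := tdist_triangle e.1 (prj M p) 0
        have h3 := (H3.tdist_prj_zero (M := M) p).trans (hP p hp)
        omega
      have h0 : ∀ I : Finset (Tor M), 0 < ∑ σ : Tor M → Bool, DH1.wF q I (dom σ) := fun _ =>
        sum_pos (fun _ _ => DH1.wF_pos hx0 _ _) univ_nonempty
      have h1 := DH1.ZwC_free hx0 hb (by omega) (M := M) (Φ := 1) fun _ _ _ => rfl
      simp only [Pi.one_apply, one_mul] at h1
      have h3 : ∀ S : Finset (Fin 0), holeG M a hs' S = 1 := fun S => by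
        rw [S.eq_empty_of_isEmpty, holeG, prod_empty]
      unfold secE
      simp only [h3, mul_one, sum_const, card_univ, Fintype.card_finset, Fintype.card_fin,
        pow_zero, one_smul]
      rw [h1, div_div_div_cancel_right₀ (neg_ne_zero.2 (h0 _).ne'),
        DH1.ZwC_free hx0 hb (by omega) hO, DH1.ZwC_free hx0 hb (by omega) fun n n' h =>
          congrArg₂ (· * ·) (hloc rfl n n' fun e he => h e (by omega)) (hO n n' h),
        neg_div_neg_eq]
      simp only [mul_assoc, ← wF_split hq.pot hR hx hD hI,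
        ← fun s => hΦ s fun h => absurd h (by decide)]
      rw [DH1.gibbs_free q hq.pot hq.range hq.mu hq.x Λ hΛ (by omega) F (hsub F hF),
        mul_div_cancel_right₀ _ (h0 _).ne']
      rfl

end Vale.Agent.P144Z
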