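import Vale.Agent.P144E.Basic
import Vale.Agent.P144D.I.SecB.Main

/-!
The energy as a weighted sum of local terms.
-/

namespace Vale.Agent.P144Z.SpA

open Finset

variable {M : ℕ} [NeZero M]

open Classical in
/-- The labels of the terms attached to a site. -/
noncomputable def lab (q : Par) : Finset (Fin 2 ⊕ Finset (ℤ × ℤ)) :=
  univ.disjSum ((potSets q.R).filter fun B => q.V B ≠ 0)

/-- The spins that a term depends on. -/
def supp (y : Tor M) : Fin 2 ⊕ Finset (ℤ × ℤ) → Finset (Tor M)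
  | .inl d => {y, oth (y, d)}
  | .inr B => B.image fun b => y + prj M b

/-- The value of a term. -/
noncomputable def val (q : Par) (κ : ℝ) (y : Tor M) (n : Tor M × Fin 2 → Bool) :
    Fin 2 ⊕ Finset (ℤ × ℤ) → ℝ
  | .inl d => if n (y, d) then -κ else 0
  | .inr B => q.μ * q.V B / B.card * spinFn B (I1.see y n)

/-- The weighted energy. -/
noncomputable def enW (q : Par) (κ : ℝ) (ω : Finset (Tor M) → ℝ) (n : Tor M × Fin 2 → Bool) : ℝ :=
  ∑ y, ∑ l ∈ lab q, ω (supp y l) * val q κ y n l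

/-- Sets of diameter at most `K`. -/
def Sml (K : ℕ) (S : Finset (Tor M)) : Prop := ∀ u ∈ S, ∀ v ∈ S, tdist u v ≤ K

theorem mem_lab {q : Par} {B : Finset (ℤ × ℤ)} (h : Sum.inr B ∈ lab q) :
    B ∈ potSets q.R ∧ q.V B ≠ 0 := by
  classical
  simpa [lab] using h

theorem sum_lab (q : Par) (f : Fin 2 ⊕ Finset (ℤ × ℤ) → ℝ)
    (hf : ∀ B, q.V B = 0 → f (.inr B) = 0) :
    ∑ l ∈ lab q, f l = ∑ d, f (.inl d) + ∑ B ∈ potSets q.R, f (.inr B) := by
  classical
  rw [lab, sum_disjSum]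
  exact congrArg _ (sum_filter_of_ne fun B _ h h' => h (hf B h'))

theorem pair_le {V : Finset (ℤ × ℤ) → ℝ} (hV : P144.IsPotential V) {R₁ : ℕ}
    (hR : ∀ B, V B ≠ 0 → (0, 0) ∈ B → B ∈ potSets R₁) {B : Finset (ℤ × ℤ)} (hB : V B ≠ 0)
    {b b' : ℤ × ℤ} (hb : b ∈ B) (hb' : b' ∈ B) : |b'.1 - b.1| ≤ R₁ ∧ |b'.2 - b.2| ≤ R₁ := by
  have h1 := hR (B.image fun x => x + -b) (by rwa [hV.translate])
    (mem_image.2 ⟨b, hb, add_neg_cancel b⟩)
  have h2 := DH1.pot_le h1 (mem_image_of_mem (fun x => x + -b) hb')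
  rwa [← sub_eq_add_neg] at h2

section

variable {q : Par} {R₁ : ℕ} {κ : ℝ}

omit [NeZero M] in
theorem self_mem {y : Tor M} {l : Fin 2 ⊕ Finset (ℤ × ℤ)} (hl : l ∈ lab q) : y ∈ supp y l := by
  rcases l with d | B
  · exact mem_insert_self _ _
  · exact mem_image.2 ⟨(0, 0), (mem_filter.1 (mem_lab hl).1).2, by simp [prj]⟩

theorem supp_sml (hV : P144.IsPotential q.V)
    (hR : ∀ B, q.V B ≠ 0 → (0, 0) ∈ B → B ∈ potSets R₁) (y : Tor M)
    {l : Fin 2 ⊕ Finset (ℤ × ℤ)} (hl : l ∈ lab q) : Sml (R₁ + 1) (supp y l) := by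
  rcases l with d | B
  · intro u hu v hv
    have h1 := ISecB.tdist_oth (y, d)
    have h2 := tdist_comm (oth (y, d)) y
    simp only [supp, mem_insert, mem_singleton] at hu hv
    dsimp only at h1
    rcases hu with rfl | rfl <;> rcases hv with rfl | rfl <;>
      first | (rw [tdist_self]; omega) | omega
  · intro u hu v hv
    obtain ⟨b, hb, rfl⟩ := mem_image.1 hu
    obtain ⟨b', hb', rfl⟩ := mem_image.1 hv
    have h := pair_le hV hR (mem_lab hl).2 hb' hb
    refine (G.tdist_add_prj_le' y b b').trans ?_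
    simp only [Int.abs_eq_natAbs] at h
    omega

theorem val_loc (hV : P144.IsPotential q.V)
    (hR : ∀ B, q.V B ≠ 0 → (0, 0) ∈ B → B ∈ potSets R₁) {y u z : Tor M} {t : ℕ}
    {l : Fin 2 ⊕ Finset (ℤ × ℤ)} (hl : l ∈ lab q) (hu : u ∈ supp y l) (hz : tdist u z ≤ t)
    {n n' : Tor M × Fin 2 → Bool} (h : ∀ e : Tor M × Fin 2, e.1 ∈ ball z (t + R₁ + 2) →
      e.1 + uv M e.2 ∈ ball z (t + R₁ + 2) → n e = n' e) : val q κ y n l = val q κ y n' l := by
  rcases l with d | B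
  · have h1 : tdist y u ≤ 1 := by
      have h1 := ISecB.tdist_oth (y, d)
      simp only [supp, mem_insert, mem_singleton] at hu
      rcases hu with rfl | rfl
      · rw [tdist_self]; omega
      · rwa [tdist_comm]
    have h2 := tdist_triangle y u z
    have h3 := tdist_triangle (y + uv M d) y z
    have h4 := tdist_uv y d
    simp only [val]
    rw [h (y, d) (G.mem_ball.2 (by dsimp only; omega)) (G.mem_ball.2 (by dsimp only; omega))]
  · obtain ⟨b, hb, rfl⟩ := mem_image.1 hu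
    have key : ∀ v ∈ hull B, y + prj M v ∈ ball z (t + R₁ + 2) := by
      intro v hv
      obtain ⟨p, hp, hv⟩ := mem_biUnion.1 hv
      have h1 := pair_le hV hR (mem_lab hl).2 hb (mem_product.1 hp).1
      have h2 := pair_le hV hR (mem_lab hl).2 hb (mem_product.1 hp).2
      have h3 := G.tdist_add_prj_le' y v b
      have h4 := tdist_triangle (y + prj M v) (y + prj M b) z
      simp only [mem_product, mem_Icc, abs_le] at h1 h2 hv
      rw [G.mem_ball]
      omega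
    simp only [val]
    refine congrArg _ (R5.spinFn_congr fun e h1 h2 => h (y + prj M e.1, e.2) (key _ h1) ?_)
    have h3 := key _ h2
    rwa [G.prj_add, I1.prj_uz, ← add_assoc] at h3

theorem val_dom (hV : P144.IsPotential q.V) {y : Tor M} {l : Fin 2 ⊕ Finset (ℤ × ℤ)}
    (hl : l ∈ lab q) {σ σ' : Tor M → Bool} (h : ∀ u ∈ supp y l, σ u = σ' u) :
    val q κ y (dom σ) l = val q κ y (dom σ') l := by
  rcases l with d | B
  · have h1 : dom σ (y, d) = dom σ' (y, d) := by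
      show xor (σ y) (σ (oth (y, d))) = xor (σ' y) (σ' (oth (y, d)))
      rw [h y (mem_insert_self _ _), h _ (mem_insert_of_mem (mem_singleton_self _))]
    simp only [val, h1]
  · obtain ⟨h1, h2⟩ := mem_lab hl
    have h3 : B.Nonempty := ⟨_, (mem_filter.1 h1).2⟩
    simp only [val]
    rw [I1.spinFn_dom σ y h3 (hV.even B h2), I1.spinFn_dom σ' y h3 (hV.even B h2)]
    exact congrArg _ (prod_congr rfl fun b hb => by rw [h _ (mem_image_of_mem _ hb)])

omit [NeZero M] in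
theorem sum_abs_val (hs : q.Small 1) (h0 : 0 ≤ κ) (h2 : κ ≤ 2) (y : Tor M)
    (n : Tor M × Fin 2 → Bool) : ∑ l ∈ lab q, |val q κ y n l| ≤ 5 := by
  rw [sum_lab q _ fun B hB => by simp [val, hB]]
  have h1 : ∀ d, |val q κ y n (.inl d)| ≤ 2 := fun d => by
    simp only [val, abs_le]
    constructor <;> split_ifs <;> linarith
  have h3 : ∑ B ∈ potSets q.R, |val q κ y n (.inr B)| ≤ 1 := by
    refine le_trans ?_ hs
    rw [mul_sum]
    refine sum_le_sum fun B hB => ?_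
    have hc : (1 : ℝ) ≤ B.card := by
      exact_mod_cast card_pos.2 ⟨_, (mem_filter.1 hB).2⟩
    simp only [val]
    rw [abs_mul, abs_div, abs_mul, Nat.abs_cast]
    exact (mul_le_of_le_one_right (by positivity) (R5.abs_spinFn _ _)).trans
      (div_le_self (by positivity) hc)
  rw [Fin.sum_univ_two]
  linarith [h1 0, h1 1]

theorem enW_split (hV : P144.IsPotential q.V)
    (hR : ∀ B, q.V B ≠ 0 → (0, 0) ∈ B → B ∈ potSets R₁) {ι : Type} (P : Finset ι)
    {ω ω₀ : Finset (Tor M) → ℝ} {ω₁ : ι → Finset (Tor M) → ℝ}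
    (h : ∀ S, Sml (R₁ + 1) S → ω S = ω₀ S + ∑ p ∈ P, ω₁ p S) (n : Tor M × Fin 2 → Bool) :
    enW q κ ω n = enW q κ ω₀ n + ∑ p ∈ P, enW q κ (ω₁ p) n := by
  unfold enW
  rw [sum_comm (s := P), ← sum_add_distrib]
  refine sum_congr rfl fun y _ => ?_
  rw [sum_comm (s := P), ← sum_add_distrib]
  refine sum_congr rfl fun l hl => ?_
  rw [h _ (supp_sml hV hR y hl), add_mul, sum_mul]

theorem enW_loc (hV : P144.IsPotential q.V)
    (hR : ∀ B, q.V B ≠ 0 → (0, 0) ∈ B → B ∈ potSets R₁) {z : Tor M} {t : ℕ}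
    {ω : Finset (Tor M) → ℝ} (hω : ∀ S, ω S ≠ 0 → ∃ u ∈ S, tdist u z ≤ t)
    {n n' : Tor M × Fin 2 → Bool} (h : ∀ e : Tor M × Fin 2, e.1 ∈ ball z (t + R₁ + 2) →
      e.1 + uv M e.2 ∈ ball z (t + R₁ + 2) → n e = n' e) : enW q κ ω n = enW q κ ω n' := by
  refine sum_congr rfl fun y _ => sum_congr rfl fun l hl => ?_
  by_cases h0 : ω (supp y l) = 0
  · rw [h0, zero_mul, zero_mul]
  · obtain ⟨u, hu, hz⟩ := hω _ h0
    rw [val_loc hV hR hl hu hz h]

theorem enW_dom (hV : P144.IsPotential q.V) {ω : Finset (Tor M) → ℝ} {σ σ' : Tor M → Bool}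
    (h : ∀ S, Sml (R₁ + 1) S → ω S ≠ 0 → ∀ u ∈ S, σ u = σ' u)
    (hR : ∀ B, q.V B ≠ 0 → (0, 0) ∈ B → B ∈ potSets R₁) :
    enW q κ ω (dom σ) = enW q κ ω (dom σ') := by
  refine sum_congr rfl fun y _ => sum_congr rfl fun l hl => ?_
  by_cases h0 : ω (supp y l) = 0
  · rw [h0, zero_mul, zero_mul]
  · rw [val_dom hV hl (h _ (supp_sml hV hR y hl) h0)]

theorem abs_enW (hV : P144.IsPotential q.V)
    (hR : ∀ B, q.V B ≠ 0 → (0, 0) ∈ B → B ∈ potSets R₁) (hs : q.Small 1) (h0 : 0 ≤ κ)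
    (h2 : κ ≤ 2) {z : Tor M} {t : ℕ} {ω : Finset (Tor M) → ℝ} (h1 : ∀ S, |ω S| ≤ 1)
    (hω : ∀ S, ω S ≠ 0 → ∃ u ∈ S, tdist u z ≤ t) (n : Tor M × Fin 2 → Bool) :
    |enW q κ ω n| ≤ 5 * (2 * (t + R₁ + 1 : ℕ) + 1) ^ 2 := by
  unfold enW
  rw [← sum_subset (subset_univ (ball z (t + R₁ + 1))) fun y _ hy => sum_eq_zero fun l hl => ?_]
  · refine (abs_sum_le_sum_abs _ _).trans ((sum_le_card_nsmul _ _ 5 fun y _ => ?_).trans ?_)
    · refine (abs_sum_le_sum_abs _ _).trans (le_trans (sum_le_sum fun l _ => ?_)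
        (sum_abs_val hs h0 h2 y n))
      rw [abs_mul]
      exact mul_le_of_le_one_left (abs_nonneg _) (h1 _)
    · rw [nsmul_eq_mul, mul_comm]
      refine mul_le_mul_of_nonneg_left ?_ (by norm_num)
      exact_mod_cast card_ball_le _ _
  · refine mul_eq_zero_of_left (by_contra fun h => hy ?_) _
    obtain ⟨u, hu, hz⟩ := hω _ h
    have h3 := supp_sml hV hR y hl y (self_mem hl) u hu
    have h4 := tdist_triangle y u z
    rw [G.mem_ball]
    omega

theorem wT_eq (hx : q.x = Real.exp (-κ)) (σ : Tor M → Bool) :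
    DH1.wT q σ = Real.exp (enW q κ (fun _ => 1) (dom σ)) := by
  rw [DH1.wT, ISecB.wt_exp q hx]
  refine congrArg Real.exp (sum_congr rfl fun y _ => ?_)
  rw [sum_lab q _ fun B hB => by simp [val, hB]]
  simp only [one_mul, val, ISecB.en1]

theorem wF_eq (hx : q.x = Real.exp (-κ)) (I : Finset (Tor M)) (n : Tor M × Fin 2 → Bool) :
    DH1.wF q I n = Real.exp (enW q κ (fun S => if S ⊆ I then 1 else 0) n) := by
  classical
  unfold enW
  rw [sum_congr rfl fun y _ => sum_lab q _ fun B hB => by simp [val, hB], sum_add_distrib,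
    Real.exp_add]
  refine congrArg₂ (· * ·) ?_ (congrArg Real.exp (sum_congr rfl fun y _ => ?_))
  · rw [← Fintype.sum_prod_type (fun e : Tor M × Fin 2 =>
      (if supp e.1 (.inl e.2) ⊆ I then (1 : ℝ) else 0) * val q κ e.1 n (.inl e.2)), Real.exp_sum]
    refine prod_congr rfl fun e _ => ?_
    simp only [supp, val, insert_subset_iff, singleton_subset_iff, Prod.mk.eta]
    by_cases h1 : n e = true <;> by_cases h2 : e.1 ∈ I ∧ oth e ∈ I <;> simp [h1, h2, hx]
  · rw [sum_filter]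
    refine sum_congr rfl fun B _ => ?_
    simp only [supp, val, image_subset_iff, ite_mul, one_mul, zero_mul]

end

end Vale.Agent.P144Z.SpA
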